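import Vale.Agent.P097N.All

/-!
# P097L: the abstract no calm box with a local baseline
-/

set_option linter.all false

noncomputable section

namespace Vale.Agent.P097L

open Filter Topology Set Metric Vale.Agent.P097N Vale.Agent.P097N.Core

/-- the cone domain cut to the lower part of a box -/
def OmB (r₀ s d R c : ℝ) : Set (ℂ × ℂ) := {p | |p.1.re - s| < R * d ∧ d < r₀ - p.1.im ∧
  r₀ - p.1.im < R * d ∧ ‖p.2‖ < 3 * d ∧ ‖p.2‖ < c * (r₀ - p.1.im)}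

/-- the baseline on the box -/
structure BlB (Y : ℂ × ℂ → ℂ) (r₀ s d R c C : ℝ) : Prop where
  hc : 0 < c
  hC : 0 < C
  d' : DifferentiableOn ℂ Y (OmB r₀ s d R c)
  ev : ∀ p ∈ OmB r₀ s d R c, Y (p.1, -p.2) = Y p
  bd : ∀ p ∈ OmB r₀ s d R c, ‖Y p - p.1‖ ≤ C * ‖p.2‖ ^ 2 / (r₀ - p.1.im)

/-- the abstract form of no calm box, with the baseline on the box only -/
def SCoreL : Prop := ∀ (c C : ℝ), 0 < c → 0 < C → ∃ R ε : ℝ, 1 < R ∧ 0 < ε ∧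
  ∀ (Φ Y : ℂ × ℂ → ℂ) (r₀ s d : ℝ), 0 < d → 2 * R * d ≤ r₀ → BlB Y r₀ s d R c C →
    Calm Φ (Box r₀ s d R) (8 * d) ε →
    (∀ x w : ℂ, w ≠ 0 → ‖w‖ ≤ 2 * d → (x - w, w) ∈ OmB r₀ s d R c → (x, w) ∈ OmB r₀ s d R c →
      (x + w, w) ∈ OmB r₀ s d R c → Y (x - w, w) ∈ Box r₀ s d R → Y (x, w) ∈ Box r₀ s d R →
      Y (x + w, w) ∈ Box r₀ s d R →
      Φ (Y (x, w), Y (x + w, w)) + Φ (Y (x, w), Y (x - w, w)) = 0) →
    ∃ (x₀ : ℂ) (τ : ℝ), 0 < τ ∧ x₀ ∈ Box r₀ s d R ∧ r₀ < x₀.im + τ ∧ -r₀ < x₀.im - τ ∧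
      ∀ (Ψ : ℂ × ℂ → ℂ) (M : ℝ),
        (∀ b ∈ Box r₀ s d R, ∀ l : ℂ, ‖l‖ ≤ 8 * d → AnalyticAt ℂ Ψ (b, l) ∧ ‖Ψ (b, l)‖ ≤ M) →
        (∀ b ∈ Box r₀ s d R, ∀ b' ∈ Box r₀ s d R, b' ≠ b → ‖b' - b‖ ≤ 8 * d →
          Ψ (b, Φ (b, b') / 2) = Ψ (b', Φ (b', b) / 2)) →
        ∃ G : ℂ → ℂ, DifferentiableOn ℂ G (ball x₀ τ) ∧ ∀ᶠ x in 𝓝 x₀, G x = Ψ (x, 0)

namespace CL

section

variable {r₀ s d D A R c C ε M : ℝ} {x w : ℂ} {Φ Y Ψ : ℂ × ℂ → ℂ}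

theorem isOpen_Om : IsOpen (OmB r₀ s d R c) := by
  refine IsOpen.and ?_ (IsOpen.and ?_ (IsOpen.and ?_ (IsOpen.and ?_ ?_))) <;>
    exact isOpen_lt (by fun_prop) (by fun_prop)

theorem omY (hY : BlB Y r₀ s d R c C) (hd : 0 < d) (h : In r₀ s d D A x) (hA : A < R)
    (hD : 1 < D) (hw : ‖w‖ < c * (D * d)) (hw' : ‖w‖ ≤ 2 * d) :
    (x, w) ∈ OmB r₀ s d R c ∧ ‖Y (x, w) - x‖ ≤ C * ‖w‖ ^ 2 / (D * d) := by
  have a : A * d < R * d := by gcongr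
  have hm : (x, w) ∈ OmB r₀ s d R c := ⟨h.1.trans_lt a, lt_of_lt_of_le (by nlinarith) h.2.1,
    h.2.2.trans_lt a, show ‖w‖ < 3 * d by linarith,
    hw.trans_le (mul_le_mul_of_nonneg_left h.2.1 hY.hc.le)⟩
  refine ⟨hm, (hY.bd _ hm).trans ?_⟩
  have := hY.hC
  gcongr
  exact h.2.1

theorem one (hY : BlB Y r₀ s d R c C) (hd : 0 < d) (hR : 2 * R * d ≤ r₀) (h1 : 2 < c * D)
    (h2 : 16 * C ≤ D) (h3 : 2 ≤ D) (h4 : A + 1 < R) (h5 : 1 < R) (h : In r₀ s d D A x)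
    (hw : ‖w‖ ≤ 2 * d) : (x, w) ∈ OmB r₀ s d R c ∧ ‖Y (x, w) - x‖ ≤ C * ‖w‖ ^ 2 / (D * d) ∧
      ‖Y (x, w) - x‖ ≤ ‖w‖ / 8 ∧ Y (x, w) ∈ Box r₀ s d R := by
  obtain ⟨a, b⟩ := omY (w := w) hY hd h (by linarith) (by linarith) (by nlinarith) hw
  have hC := hY.hC
  have e : C * ‖w‖ ^ 2 / (D * d) ≤ ‖w‖ / 8 := by
    rw [div_le_div_iff₀ (by positivity) (by norm_num)]
    have := norm_nonneg w
    have k : C * ‖w‖ * 8 ≤ D * d := by nlinarith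
    nlinarith
  refine ⟨a, b, b.trans e, (h.shift (t := 1) (by linarith)).box hd ?_ h4⟩
  have : 1 / R < 1 := by rw [div_lt_one (by linarith)]; exact h5
  linarith

theorem Hd (hY : BlB Y r₀ s d R c C) (hd : 0 < d) (hR : 2 * R * d ≤ r₀) (h1 : 2 < c * D)
    (h2 : 16 * C ≤ D) (h3 : 2 ≤ D) (h4 : A + 1 < R) (h5 : 1 < R)
    (hΦ : Calm Φ (Box r₀ s d R) (8 * d) ε) (hε : ε ≤ 1)
    (hΨ : ∀ b ∈ Box r₀ s d R, ∀ l : ℂ, ‖l‖ ≤ 8 * d → AnalyticAt ℂ Ψ (b, l) ∧ ‖Ψ (b, l)‖ ≤ M)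
    (hs : ∀ b ∈ Box r₀ s d R, ∀ b' ∈ Box r₀ s d R, b' ≠ b → ‖b' - b‖ ≤ 8 * d →
      Ψ (b, Φ (b, b') / 2) = Ψ (b', Φ (b', b) / 2))
    (h : In r₀ s d D A x) (h' : In r₀ s d D A (x + w)) (hw : ‖w‖ ≤ 2 * d) (h0 : w ≠ 0) :
    DifferentiableAt ℂ (H Φ Y Ψ) (x, w) ∧ ‖H Φ Y Ψ (x, w)‖ ≤ M ∧
      H Φ Y Ψ (x + w, -w) = H Φ Y Ψ (x, w) := by
  obtain ⟨a1, -, a2, a3⟩ := one hY hd hR h1 h2 h3 h4 h5 h hw
  obtain ⟨b1, -, b2, b3⟩ := one hY hd hR h1 h2 h3 h4 h5 h' hw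
  have e : ‖Y (x + w, w) - Y (x, w) - w‖ ≤ ‖w‖ / 4 := by
    have : Y (x + w, w) - Y (x, w) - w = (Y (x + w, w) - (x + w)) - (Y (x, w) - x) := by ring
    rw [this]
    linarith [norm_sub_le (Y (x + w, w) - (x + w)) (Y (x, w) - x)]
  have hw0 : 0 < ‖w‖ := norm_pos_iff.2 h0
  have ne : Y (x + w, w) ≠ Y (x, w) := fun k => by
    rw [k, sub_self, zero_sub, norm_neg] at e
    linarith
  have le : ‖Y (x + w, w) - Y (x, w)‖ ≤ 8 * d := by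
    linarith [norm_le_norm_sub_add (Y (x + w, w) - Y (x, w)) w]
  have hl := hΨ _ a3 _ ((half hΦ hε a3 b3 le).trans le)
  have dA : DifferentiableAt ℂ Y (x, w) := hY.d'.differentiableAt (isOpen_Om.mem_nhds a1)
  have dB : DifferentiableAt ℂ (fun q : ℂ × ℂ => Y (q.1 + q.2, q.2)) (x, w) :=
    (hY.d'.differentiableAt (isOpen_Om.mem_nhds b1)).comp (x, w)
      (f := fun q : ℂ × ℂ => (q.1 + q.2, q.2)) (by fun_prop)
  have dΦ : DifferentiableAt ℂ (fun q : ℂ × ℂ => Φ (Y q, Y (q.1 + q.2, q.2))) (x, w) :=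
    ((hΦ _ a3 _ b3 le).2 ne).differentiableAt.comp (x, w)
      (f := fun q : ℂ × ℂ => (Y q, Y (q.1 + q.2, q.2))) (dA.prodMk dB)
  refine ⟨hl.1.differentiableAt.comp (x, w)
    (f := fun q : ℂ × ℂ => (Y q, Φ (Y q, Y (q.1 + q.2, q.2)) / 2)) (dA.prodMk (by simpa only [div_eq_mul_inv] using dΦ.mul_const (2 : ℂ)⁻¹)),
    hl.2, ?_⟩
  have ea : Y (x, -w) = Y (x, w) := hY.ev _ a1
  have eb : Y (x + w, -w) = Y (x + w, w) := hY.ev _ b1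
  simp only [H, add_neg_cancel_right, ea, eb]
  exact (hs _ a3 _ b3 ne le).symm

/-- continuity at `w = 0`. -/
theorem Hc (hY : BlB Y r₀ s d R c C) (hd : 0 < d) (hR : 2 * R * d ≤ r₀) (h1 : 2 < c * D)
    (h2 : 16 * C ≤ D) (h3 : 2 ≤ D) (h4 : A + 2 < R) (h5 : 1 < R)
    (hΦ : Calm Φ (Box r₀ s d R) (8 * d) ε) (hε : ε ≤ 1)
    (hΨ : ∀ b ∈ Box r₀ s d R, ∀ l : ℂ, ‖l‖ ≤ 8 * d → AnalyticAt ℂ Ψ (b, l) ∧ ‖Ψ (b, l)‖ ≤ M)
    (h : In r₀ s d (D + 1) A x) :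
    ContinuousAt (H Φ Y Ψ) (x, 0) ∧ H Φ Y Ψ (x, 0) = Ψ (x, 0) := by
  have hx := h.mono hd (D' := D) (A' := A + 1) (by linarith) (by linarith)
  obtain ⟨a1, -, a2, a3⟩ := one (w := 0) hY hd hR h1 h2 h3 (by linarith) h5 hx (by simp [hd.le])
  have y0 : Y (x, 0) = x := by simpa [sub_eq_zero] using a2
  rw [y0] at a3
  have p0 : Φ (x, x) / 2 = 0 := by
    have := half hΦ hε a3 a3 (by simp [hd.le])
    rwa [sub_self, norm_zero, norm_le_zero_iff] at this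
  have v : H Φ Y Ψ (x, 0) = Ψ (x, 0) := by simp only [H, add_zero, y0, p0]
  refine ⟨?_, v⟩
  have cA : ContinuousAt Y (x, 0) := hY.d'.continuousOn.continuousAt (isOpen_Om.mem_nhds a1)
  have cB : ContinuousAt (fun q : ℂ × ℂ => Y (q.1 + q.2, q.2)) (x, 0) :=
    ContinuousAt.comp_of_eq (g := Y) (f := fun q : ℂ × ℂ => (q.1 + q.2, q.2)) cA (by fun_prop)
      (by simp)
  have tA : Tendsto Y (𝓝 (x, 0)) (𝓝 x) := by simpa [y0] using cA.tendsto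
  have tB : Tendsto (fun q : ℂ × ℂ => Y (q.1 + q.2, q.2)) (𝓝 (x, 0)) (𝓝 x) := by
    simpa [y0] using cB.tendsto
  have oB : IsOpen (Box r₀ s d R) := isOpen_Box
  have tD : Tendsto (fun q : ℂ × ℂ => ‖Y (q.1 + q.2, q.2) - Y q‖) (𝓝 (x, 0)) (𝓝 0) := by
    simpa using (tB.sub tA).norm
  have tΦ : Tendsto (fun q : ℂ × ℂ => Φ (Y q, Y (q.1 + q.2, q.2)) / 2) (𝓝 (x, 0)) (𝓝 0) := by
    refine squeeze_zero_norm' ?_ tD
    filter_upwards [tA.eventually (oB.mem_nhds a3), tB.eventually (oB.mem_nhds a3),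
      tD.eventually (ge_mem_nhds (by positivity : (0 : ℝ) < 8 * d))] with q q1 q2 q3
    exact half hΦ hε q1 q2 q3
  rw [ContinuousAt, v]
  exact (hΨ x a3 0 (by simp [hd.le])).1.continuousAt.tendsto.comp (tA.prodMk_nhds tΦ)

/-- the first difference at a deep point. -/
theorem deep (hY : BlB Y r₀ s d R c C) (hd : 0 < d) (hR : 2 * R * d ≤ r₀) (h1 : 2 < c * D)
    (h2 : 16 * C ≤ D) (h3 : 2 ≤ D) (h4 : A + D + 1 < R) (h5 : 1 < R) (h : In r₀ s d (2 * D) A x)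
    (hw : ‖w‖ = d) : ‖Y (x + w, w) - Y (x, w) - w‖ ≤ 2 * C * d / D ^ 2 := by
  have k : ∀ y ∈ ball x (D * d), (y, w) ∈ OmB r₀ s d R c ∧ ‖Y (y, w) - y‖ ≤ C * d / D := fun y hy => by
    have := h.shift (t := D) (mem_ball_iff_norm.1 hy).le
    rw [show 2 * D - D = D by ring] at this
    obtain ⟨a, b, -⟩ := one (w := w) hY hd hR h1 h2 h3 h4 h5 this (by linarith)
    refine ⟨a, b.trans_eq ?_⟩
    rw [hw]
    field_simp
  have hD : 0 < D * d := by positivity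
  have dd : DifferentiableOn ℂ (fun y => Y (y, w) - y) (ball x (D * d)) := fun y hy =>
    (((hY.d'.differentiableAt (isOpen_Om.mem_nhds (k y hy).1)).comp y
      (f := fun y : ℂ => (y, w)) (by fun_prop)).sub differentiableAt_id).differentiableWithinAt
  have := Complex.dist_le_div_mul_dist_of_mapsTo_ball (R₂ := 2 * C * d / D) (z := x + w) dd
    (fun y hy => by
      rw [mem_closedBall_iff_norm]
      have := norm_sub_le (Y (y, w) - y) (Y (x, w) - x)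
      have e : 2 * C * d / D = C * d / D + C * d / D := by ring
      linarith [(k y hy).2, (k x (mem_ball_self hD)).2])
    (by rw [mem_ball_iff_norm, add_sub_cancel_left, hw]; nlinarith)
  rw [dist_eq_norm, dist_eq_norm, add_sub_cancel_left, hw] at this
  convert this using 1
  · congr 1
    ring
  · field_simp

/-- points below a given point -/
theorem dn {κ : ℝ} {J : ℕ} (hd : 0 < d) (hw : ‖w‖ = d) (hk : κ * d ≤ w.im) {D' : ℝ} {y : ℂ}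
    (hy : In r₀ s d D' A y) (i : ℕ) (hi : i ≤ J + 1) :
    In r₀ s d (D' + i * κ) (A + J + 1) (y - i * w) := by
  have hi' : (i : ℝ) ≤ J + 1 := by exact_mod_cast hi
  have := hy.add (u := -(i * w)) (t := J + 1) (k := -(i * κ))
    (by rw [norm_neg, norm_mul, Complex.norm_natCast, hw]; gcongr)
    (by
      simp only [Complex.neg_im, Complex.mul_im, Complex.natCast_re, Complex.natCast_im]
      nlinarith [(i.cast_nonneg : (0 : ℝ) ≤ i)])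
  rwa [sub_neg_eq_add, ← add_assoc, ← sub_eq_add_neg] at this

theorem nb {μ κ : ℝ} {J : ℕ} (hd : 0 < d) (hw : ‖w‖ = d) (hk : κ * d ≤ w.im) (hκ : 0 < κ)
    (hμ1 : μ ≤ 1) (h4 : A + J + 3 < R) (h6 : 1 / R < μ / 4)
    (hx : In r₀ s d (μ / 2) A (x + (J + 1 : ℕ) * w)) {j : ℕ} (hj : j ≤ J + 1) {z : ℂ}
    (hz : ‖z - (x + j * w)‖ ≤ μ / 4 * d) : z ∈ Box r₀ s d R := by
  have a := dn (J := J) hd hw hk hx (J + 1 - j) (Nat.sub_le _ _)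
  rw [show x + (J + 1 : ℕ) * w - ((J + 1 - j : ℕ) : ℂ) * w = x + j * w by
    rw [Nat.cast_sub hj]; ring] at a
  refine (a.shift (t := μ / 4) hz).box hd ?_ (by linarith)
  have : (0 : ℝ) ≤ ((J + 1 - j : ℕ) : ℝ) * κ := by positivity
  linarith

theorem chain (hB : SBox) {μ κ D₀ : ℝ} {J : ℕ} {X : Set ℂ} (hY : BlB Y r₀ s d R c C) (hd : 0 < d)
    (hR : 2 * R * d ≤ r₀) (hΦ : Calm Φ (Box r₀ s d R) (8 * d) ε) (hε0 : 0 ≤ ε)
    (hw : ‖w‖ = d) (hk : κ * d ≤ w.im) (hκ : 0 < κ) (hμ : 0 < μ) (hμ1 : μ ≤ 1) (hX : IsOpen X)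
    (hin : ∀ x ∈ X, In r₀ s d (μ / 2) A (x + (J + 1 : ℕ) * w)) (h4 : A + J + D₀ + 3 < R)
    (h5 : 1 < R) (h6 : 1 / R < μ / 4) (g1 : 2 < c * D₀) (g2 : 16 * C ≤ D₀) (g3 : 2 ≤ D₀)
    (g4 : 2 * D₀ ≤ J * κ) (g5 : 256 * ε ≤ μ)
    (g6 : C / D₀ + (J + 1) * (2 * C / D₀ ^ 2 + J * (5 * ε)) ≤ μ / 8) :
    ∃ y : ℕ → ℂ → ℂ, (∀ j ≤ J + 1, DifferentiableOn ℂ (y j) X) ∧ ∀ x ∈ X,
      (∀ j ≤ J + 1, y j x ∈ Box r₀ s d R) ∧ ‖y (J + 1) x - y J x - w‖ ≤ d / 4 ∧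
      ∀ z : ℕ → ℂ, z 0 = Y (x, w) → z 1 = Y (x + w, w) →
        (∀ j < J, Φ (z (j + 1), z (j + 2)) + Φ (z (j + 1), z j) = 0 ∧
          ‖z (j + 2) - (2 * z (j + 1) - z j)‖ < μ / 8 * d / 2) → ∀ j ≤ J + 1, z j = y j x := by
  have hC := hY.hC
  have hJ : (0 : ℝ) ≤ J := J.cast_nonneg
  have st : ∀ x ∈ X, In r₀ s d (2 * D₀) (A + J + 1) x ∧
      In r₀ s d D₀ (A + J + 1) (x + w) := fun x hx => by
    have a := dn (J := J) hd hw hk (hin _ hx) (J + 1) le_rfl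
    have b := dn (J := J) hd hw hk (hin _ hx) J (Nat.le_succ J)
    rw [add_sub_cancel_right] at a
    rw [show x + (J + 1 : ℕ) * w - J * w = x + w by push_cast; ring] at b
    exact ⟨a.mono hd (by push_cast; linarith) le_rfl, b.mono hd (by linarith) le_rfl⟩
  have w2 : ‖w‖ ≤ 2 * d := by linarith
  have r1 : A + J + 1 + 1 < R := by linarith
  have o0 := fun x hx => one (w := w) hY hd hR g1 g2 g3 r1 h5
    ((st x hx).1.mono hd (D' := D₀) (by linarith) le_rfl) w2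
  have o1 := fun x hx => one (w := w) hY hd hR g1 g2 g3 r1 h5 (st x hx).2 w2
  have q0 : 0 ≤ 2 * C / D₀ ^ 2 + J * (5 * ε) := by positivity
  have q1 : 0 ≤ C / D₀ := by positivity
  have n1 : 4 * (μ / 8 * d) ≤ ‖w‖ := by rw [hw]; nlinarith
  have n2 : 32 * ε * ‖w‖ ≤ μ / 8 * d := by rw [hw]; nlinarith
  have n3 : 2 * C * d / D₀ ^ 2 + J * (5 * ε * ‖w‖) ≤ ‖w‖ / 4 := by
    have e : 2 * C * d / D₀ ^ 2 + J * (5 * ε * d) = (2 * C / D₀ ^ 2 + J * (5 * ε)) * d := by ring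
    have : 2 * C / D₀ ^ 2 + J * (5 * ε) ≤ 1 / 4 := by nlinarith [mul_nonneg hJ q0]
    rw [hw, e]
    nlinarith
  have n4 : C * d / D₀ + (J + 1) * (2 * C * d / D₀ ^ 2 + J * (5 * ε * ‖w‖)) ≤ μ / 4 * d / 2 := by
    have e : C * d / D₀ + (J + 1) * (2 * C * d / D₀ ^ 2 + J * (5 * ε * d)) =
      (C / D₀ + (J + 1) * (2 * C / D₀ ^ 2 + J * (5 * ε))) * d := by ring
    rw [hw, e]
    linarith [mul_le_mul_of_nonneg_right g6 hd.le]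
  have r2 : A + J + 1 + D₀ + 1 < R := by linarith
  have r3 : A + J + 3 < R := by linarith
  obtain ⟨y, dy, hy⟩ := hB Φ _ X w (fun x => Y (x, w)) (fun x => Y (x + w, w)) J
    (8 * d) ε (μ / 4 * d) (μ / 8 * d) (C * d / D₀) (2 * C * d / D₀ ^ 2) hΦ hX hε0
    (by positivity) (by linarith) n1 (by linarith) n2 n3 n4
    (fun x hx => ((hY.d'.differentiableAt (isOpen_Om.mem_nhds (o0 x hx).1)).comp x
      (f := fun y : ℂ => (y, w)) (by fun_prop)).differentiableWithinAt)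
    (fun x hx => ((hY.d'.differentiableAt (isOpen_Om.mem_nhds (o1 x hx).1)).comp x
      (f := fun y : ℂ => (y + w, w)) (by fun_prop)).differentiableWithinAt)
    (fun x hx => ⟨(o0 x hx).2.1.trans_eq (by rw [hw]; field_simp),
      deep hY hd hR g1 g2 g3 r2 h5 (st x hx).1 hw⟩)
    (fun x hx j hj z hz => nb hd hw hk hκ hμ1 r3 h6 (hin x hx) hj (mem_ball_iff_norm.1 hz).le)
  have n5 : μ / 4 * d / 2 ≤ μ / 4 * d := by linarith [mul_pos hμ hd]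
  exact ⟨y, dy, fun x hx => ⟨fun j hj => nb hd hw hk hκ hμ1 r3 h6 (hin x hx) hj
    (((hy x hx).1 j hj).trans n5), hw ▸ (hy x hx).2.1 J le_rfl, (hy x hx).2.2⟩⟩

/-- the true orbit at a deep point -/
theorem orbit {μ : ℝ} {J : ℕ} (hY : BlB Y r₀ s d R c C) (hd : 0 < d) (hR : 2 * R * d ≤ r₀)
    (law : ∀ x w : ℂ, w ≠ 0 → ‖w‖ ≤ 2 * d → (x - w, w) ∈ OmB r₀ s d R c → (x, w) ∈ OmB r₀ s d R c →
      (x + w, w) ∈ OmB r₀ s d R c → Y (x - w, w) ∈ Box r₀ s d R → Y (x, w) ∈ Box r₀ s d R →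
      Y (x + w, w) ∈ Box r₀ s d R →
      Φ (Y (x, w), Y (x + w, w)) + Φ (Y (x, w), Y (x - w, w)) = 0)
    (hw : ‖w‖ = d) (hk : 0 ≤ w.im) (hμ1 : μ ≤ 1)
    (a : In r₀ s d (D + 1) A (x + (J + 1 : ℕ) * w))
    (h1 : 2 < c * D) (h2 : 64 * C < μ * D) (h3 : 2 ≤ D) (h4 : A + J + 2 < R) (h5 : 1 < R)
    {j : ℕ} (hj : j ≤ J) :
    Φ (Y (x + (j + 1 : ℕ) * w, w), Y (x + (j + 2 : ℕ) * w, w)) +
      Φ (Y (x + (j + 1 : ℕ) * w, w), Y (x + j * w, w)) = 0 ∧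
    ‖Y (x + (j + 2 : ℕ) * w, w) - (2 * Y (x + (j + 1 : ℕ) * w, w) - Y (x + j * w, w))‖ <
      μ / 8 * d / 2 := by
  have hC := hY.hC
  have hJ : (0 : ℝ) ≤ J := J.cast_nonneg
  have w0 : w ≠ 0 := norm_pos_iff.1 (hw ▸ hd)
  have h2' : 16 * C ≤ D := by nlinarith
  have pt : ∀ j : ℕ, j ≤ J + 2 → In r₀ s d D (A + J + 1) (x + j * w) := fun j hj => by
    rcases hj.eq_or_lt with rfl | hj
    · have := a.shift (t := 1) (y := x + ((J + 2 : ℕ) : ℂ) * w)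
        (by rw [show x + ((J + 2 : ℕ) : ℂ) * w - (x + (J + 1 : ℕ) * w) = w by push_cast; ring, hw]
            simp)
      exact this.mono hd (by linarith) (by linarith)
    · have hj' : j ≤ J + 1 := by omega
      have := dn (J := J) (κ := 0) hd hw (by simpa using hk) a (J + 1 - j) (Nat.sub_le _ _)
      rw [show x + (J + 1 : ℕ) * w - ((J + 1 - j : ℕ) : ℂ) * w = x + j * w by
        rw [Nat.cast_sub hj']; ring] at this
      exact this.mono hd (by linarith) le_rfl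
  have w2 : ‖w‖ ≤ 2 * d := by linarith
  have r1 : A + J + 1 + 1 < R := by linarith
  have o := fun j hj => one (w := w) hY hd hR h1 h2' h3 r1 h5 (pt j hj) w2
  obtain ⟨a0, b0, -, c0⟩ := o j (by omega)
  obtain ⟨a1, b1, -, c1⟩ := o (j + 1) (by omega)
  obtain ⟨a2, b2, -, c2⟩ := o (j + 2) (by omega)
  have e1 : x + (j + 1 : ℕ) * w - w = x + j * w := by push_cast; ring
  have e2 : x + (j + 1 : ℕ) * w + w = x + (j + 2 : ℕ) * w := by push_cast; ring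
  have := law (x + (j + 1 : ℕ) * w) w w0 w2
  rw [e1, e2] at this
  refine ⟨this a0 a1 a2 c0 c1 c2, ?_⟩
  have e : C * ‖w‖ ^ 2 / (D * d) < μ / 64 * d := by
    rw [hw, div_lt_iff₀ (by positivity)]
    nlinarith [mul_pos hd hd]
  have e' : Y (x + (j + 2 : ℕ) * w, w) - (2 * Y (x + (j + 1 : ℕ) * w, w) -
      Y (x + j * w, w)) = (Y (x + (j + 2 : ℕ) * w, w) - (x + (j + 2 : ℕ) * w)) -
      2 * (Y (x + (j + 1 : ℕ) * w, w) - (x + (j + 1 : ℕ) * w)) +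
      (Y (x + j * w, w) - (x + j * w)) := by push_cast; ring
  rw [e']
  refine (norm_add_le _ _).trans_lt ?_
  refine (add_le_add_left (norm_sub_le _ _) _).trans_lt ?_
  rw [norm_mul, Complex.norm_ofNat]
  linarith

theorem thick (hB : SBox) {μ κ D₀ τ : ℝ} {J : ℕ} {x₁ : ℂ} (hY : BlB Y r₀ s d R c C) (hd : 0 < d)
    (hR : 2 * R * d ≤ r₀) (hΦ : Calm Φ (Box r₀ s d R) (8 * d) ε) (hε0 : 0 ≤ ε) (hε : ε ≤ 1)
    (law : ∀ x w : ℂ, w ≠ 0 → ‖w‖ ≤ 2 * d → (x - w, w) ∈ OmB r₀ s d R c → (x, w) ∈ OmB r₀ s d R c →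
      (x + w, w) ∈ OmB r₀ s d R c → Y (x - w, w) ∈ Box r₀ s d R → Y (x, w) ∈ Box r₀ s d R →
      Y (x + w, w) ∈ Box r₀ s d R →
      Φ (Y (x, w), Y (x + w, w)) + Φ (Y (x, w), Y (x - w, w)) = 0)
    (hΨ : ∀ b ∈ Box r₀ s d R, ∀ l : ℂ, ‖l‖ ≤ 8 * d → AnalyticAt ℂ Ψ (b, l) ∧ ‖Ψ (b, l)‖ ≤ M)
    (hw : ‖w‖ = d) (hk : κ * d ≤ w.im) (hκ : 0 < κ) (hμ : 0 < μ) (hμ1 : μ ≤ 1) (hτ : 0 < τ)
    (hin : ∀ x ∈ ball x₁ τ, In r₀ s d (μ / 2) A x) (hin' : In r₀ s d (D + 2) A x₁)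
    (h1 : 2 < c * D) (h2 : 64 * C < μ * D) (h3 : 2 ≤ D) (h4 : A + J + D₀ + 3 < R)
    (h5 : 1 < R) (h6 : 1 / R < μ / 4) (g1 : 2 < c * D₀) (g2 : 16 * C ≤ D₀) (g3 : 2 ≤ D₀)
    (g4 : 2 * D₀ ≤ J * κ) (g5 : 256 * ε ≤ μ)
    (g6 : C / D₀ + (J + 1) * (2 * C / D₀ ^ 2 + J * (5 * ε)) ≤ μ / 8) :
    ∃ G : ℂ → ℂ, DifferentiableOn ℂ G (ball x₁ τ) ∧ (∀ x ∈ ball x₁ τ, ‖G x‖ ≤ M) ∧
      ∀ᶠ x in 𝓝 x₁, G x = H Φ Y Ψ (x, w) := by
  obtain ⟨u, hu⟩ : ∃ u : ℂ, u = ((J + 1 : ℕ) : ℂ) * w := ⟨_, rfl⟩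
  have tr : ∀ x ∈ ball (x₁ - u) τ, x + u ∈ ball x₁ τ := fun x hx => by
    rw [mem_ball_iff_norm] at *
    convert hx using 2
    ring
  obtain ⟨y, dy, hy⟩ := chain (X := ball (x₁ - u) τ) hB hY hd hR hΦ hε0 hw hk hκ hμ hμ1 isOpen_ball
    (fun x hx => hu ▸ hin _ (tr x hx)) h4 h5 h6 g1 g2 g3 g4 g5 g6
  have tr' : ∀ x ∈ ball x₁ τ, x - u ∈ ball (x₁ - u) τ := fun x hx => by
    rw [mem_ball_iff_norm] at *
    convert hx using 2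
    ring
  have fin : ∀ x ∈ ball (x₁ - u) τ, DifferentiableAt ℂ
      (fun x => Ψ (y (J + 1) x, -(Φ (y (J + 1) x, y J x) / 2))) x ∧
      ‖Ψ (y (J + 1) x, -(Φ (y (J + 1) x, y J x) / 2))‖ ≤ M := fun x hx => by
    have e := (hy x hx).2.1
    have le : ‖y J x - y (J + 1) x‖ ≤ 8 * d := by
      rw [norm_sub_rev]
      linarith [norm_le_norm_sub_add (y (J + 1) x - y J x) w]
    have ne : y J x ≠ y (J + 1) x := fun k => by
      rw [k, sub_self, zero_sub, norm_neg] at e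
      linarith
    have b1 := (hy x hx).1 (J + 1) le_rfl
    have b0 := (hy x hx).1 J (Nat.le_succ J)
    have hl := hΨ _ b1 (-(Φ (y (J + 1) x, y J x) / 2))
      (by rw [norm_neg]; exact (half hΦ hε b1 b0 le).trans le)
    have d1 := (dy (J + 1) le_rfl).differentiableAt (isOpen_ball.mem_nhds hx)
    have d0 := (dy J (Nat.le_succ J)).differentiableAt (isOpen_ball.mem_nhds hx)
    have dΦ : DifferentiableAt ℂ (fun x => Φ (y (J + 1) x, y J x)) x :=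
      ((hΦ _ b1 _ b0 le).2 ne).differentiableAt.comp x (f := fun x => (y (J + 1) x, y J x))
        (d1.prodMk d0)
    exact ⟨hl.1.differentiableAt.comp x
      (f := fun x => (y (J + 1) x, -(Φ (y (J + 1) x, y J x) / 2)))
      (d1.prodMk (dΦ.div_const 2).neg), hl.2⟩
  refine ⟨fun x => Ψ (y (J + 1) (x - u), -(Φ (y (J + 1) (x - u), y J (x - u)) / 2)),
    fun x hx => ((fin _ (tr' x hx)).1.comp x (f := fun x => x - u)
      (by fun_prop)).differentiableWithinAt, fun x hx => (fin _ (tr' x hx)).2, ?_⟩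
  filter_upwards [ball_mem_nhds x₁ hτ, ball_mem_nhds x₁ hd] with x hx hx'
  have e1 : x - u + (J + 1 : ℕ) * w = x := by rw [hu]; ring
  have e2 : x - u + (J + 2 : ℕ) * w = x + w := by rw [hu]; push_cast; ring
  have a : In r₀ s d (D + 1) (A + 1) (x - u + (J + 1 : ℕ) * w) := by
    have := hin'.shift (t := 1) (y := x) (by rw [one_mul]; exact (mem_ball_iff_norm.1 hx').le)
    rwa [show D + 2 - 1 = D + 1 by ring, ← e1] at this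
  have lw := fun j hj => orbit (j := j) hY hd hR law hw ((mul_pos hκ hd).le.trans hk) hμ1 a h1 h2
    h3 (by linarith) h5 hj
  have un := (hy _ (tr' x hx)).2.2 (fun j => Y (x - u + j * w, w)) (by simp) (by simp)
    (fun j hj => lw j hj.le)
  have l := (lw J le_rfl).1
  rw [← un (J + 1) le_rfl, ← un J (Nat.le_succ J)]
  simp only [e1, e2] at l ⊢
  rw [H, eq_neg_of_add_eq_zero_left l, neg_div]

end

section

variable {r₀ s d D₁ D₂ A R c C ε M K ρ : ℝ} {Φ Y Ψ : ℂ × ℂ → ℂ} {χ : ℂ → ℂ} {x₀ : ℂ}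
  (hY : BlB Y r₀ s d R c C) (hd : 0 < d) (hr : 2 * R * d ≤ r₀) (a1 : 2 < c * D₁) (a2 : 16 * C ≤ D₁)
  (a3 : 2 ≤ D₁) (r4 : A + 2 < R) (r1 : 1 < R) (hΦ : Calm Φ (Box r₀ s d R) (8 * d) ε) (hε : ε ≤ 1)
  (hΨ : ∀ b ∈ Box r₀ s d R, ∀ l : ℂ, ‖l‖ ≤ 8 * d → AnalyticAt ℂ Ψ (b, l) ∧ ‖Ψ (b, l)‖ ≤ M)
  (hs : ∀ b ∈ Box r₀ s d R, ∀ b' ∈ Box r₀ s d R, b' ≠ b → ‖b' - b‖ ≤ 8 * d →
    Ψ (b, Φ (b, b') / 2) = Ψ (b', Φ (b', b) / 2))
  (hρ1 : 1 < ρ) (hρ2 : ρ ≤ 2) (dχ : DifferentiableOn ℂ χ (ball 0 ρ)) (χ0 : χ 0 = 0)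
  (χe : ∀ z, χ (-z) = χ z) (χb : ∀ z ∈ ball (0 : ℂ) ρ, ‖χ z‖ ≤ K) (hK : 0 < K)
  (i0 : In r₀ s d D₂ D₂ x₀) (e1 : D₁ + K + 5 ≤ D₂) (e2 : 2 * D₂ + K + 4 ≤ A)

include hY hd hr a1 a2 a3 r4 r1 hΦ hε hΨ hs hρ1 hρ2 dχ χ0 χe χb hK i0 e1 e2

theorem gen {x w : ℂ} (hw : ‖w‖ < ρ * d) (h0 : w ≠ 0) (h : In r₀ s d D₁ A (x + sh χ d w))
    (h' : In r₀ s d D₁ A (x + sh χ d (-w))) : DifferentiableAt ℂ (FF Φ Y Ψ χ d) (x, w) ∧
      ‖FF Φ Y Ψ χ d (x, w)‖ ≤ M ∧ FF Φ Y Ψ χ d (x, -w) = FF Φ Y Ψ χ d (x, w) := by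
  rw [sh_neg χe, ← add_assoc] at h'
  obtain ⟨k1, k2, k3⟩ := Hd hY hd hr a1 a2 a3 (by linarith) r1 hΦ hε hΨ hs h h'
    (hw.le.trans (by gcongr)) h0
  refine ⟨?_, k2, ?_⟩
  · have k4 : DifferentiableAt ℂ (fun p : ℂ × ℂ => sh χ d p.2) (x, w) :=
      (sh_d hd dχ hw).comp (x, w) (f := fun p : ℂ × ℂ => p.2) differentiableAt_snd
    exact k1.comp (x, w) (f := fun p : ℂ × ℂ => (p.1 + sh χ d p.2, p.2))
      ((differentiableAt_fst.fun_add k4).prodMk differentiableAt_snd)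
  · simp only [FF, sh_neg χe, ← add_assoc, k3]

theorem bid : DifferentiableOn ℂ (FF Φ Y Ψ χ d) (ball x₀ d ×ˢ ball 0 (ρ * d)) ∨ ¬ SRem := by
  refine or_not_of_imp fun hR => ?_
  have near : ∀ x ∈ ball x₀ d, In r₀ s d (D₂ - 1) (D₂ + 1) x := fun x hx =>
    i0.shift (t := 1) (by rw [one_mul]; exact (mem_ball_iff_norm.1 hx).le)
  have near' : ∀ x ∈ ball x₀ d, ∀ w : ℂ, ‖w‖ < ρ * d → In r₀ s d D₁ A (x + sh χ d w) :=
    fun x hx w hw => ((near x hx).shift (t := K + 1)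
      (by rw [add_sub_cancel_left]; exact sh_le hd hρ2 χb hw)).mono hd (by linarith) (by linarith)
  have s0 : sh χ d 0 = 0 := by simp [sh, χ0]
  refine hR _ _ _ isOpen_ball (fun x hx w hw h0 => ?_) fun x hx => ?_
  · rw [mem_ball_zero_iff] at hw
    exact (gen hY hd hr a1 a2 a3 r4 r1 hΦ hε hΨ hs hρ1 hρ2 dχ χ0 χe χb hK i0 e1 e2 hw h0
      (near' x hx w hw) (near' x hx (-w) (by rwa [norm_neg]))).1
  · exact ContinuousAt.comp_of_eq (g := H Φ Y Ψ) (f := fun w : ℂ => (x + sh χ d w, w))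
      (Hc hY hd hr a1 a2 a3 r4 r1 hΦ hε hΨ ((near x hx).mono hd (by linarith) (by linarith))).1
      ((continuousAt_const.add (sh_d hd dχ (by rw [norm_zero]; positivity)).continuousAt).prodMk
        continuousAt_id) (by simp [s0])

theorem evn {x w : ℂ} (hx : x ∈ ball x₀ d) (hw : ‖w‖ = d) :
    FF Φ Y Ψ χ d (x, -w) = FF Φ Y Ψ χ d (x, w) ∧ FF Φ Y Ψ χ d (x, 0) = Ψ (x, 0) := by
  have near : In r₀ s d (D₂ - 1) (D₂ + 1) x :=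
    i0.shift (t := 1) (by rw [one_mul]; exact (mem_ball_iff_norm.1 hx).le)
  have near' : ∀ w : ℂ, ‖w‖ < ρ * d → In r₀ s d D₁ A (x + sh χ d w) :=
    fun w hw => (near.shift (t := K + 1)
      (by rw [add_sub_cancel_left]; exact sh_le hd hρ2 χb hw)).mono hd (by linarith) (by linarith)
  have ρd : ‖w‖ < ρ * d := by nlinarith
  have s0 : sh χ d 0 = 0 := by simp [sh, χ0]
  refine ⟨(gen hY hd hr a1 a2 a3 r4 r1 hΦ hε hΨ hs hρ1 hρ2 dχ χ0 χe χb hK i0 e1 e2 ρd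
    (norm_pos_iff.1 (hw ▸ hd)) (near' w ρd) (near' (-w) (by rwa [norm_neg]))).2.2, ?_⟩
  simp only [FF, s0, add_zero]
  exact (Hc hY hd hr a1 a2 a3 r4 r1 hΦ hε hΨ (near.mono hd (by linarith) (by linarith))).2

theorem thin {μ κ : ℝ} {w : ℂ} (hμ1 : μ ≤ 1) (hw : ‖w‖ = d) (hk : |(w / d).im| < κ)
    (χs : ∀ z : ℂ, ‖z‖ = 1 → |z.im| < κ → (χ z).im ≤ -(D₁ + 2)) :
    DifferentiableOn ℂ (fun x => FF Φ Y Ψ χ d (x, w)) (ball x₀ ((D₂ + μ / 2) * d)) ∧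
      ∀ x ∈ ball x₀ ((D₂ + μ / 2) * d), ‖FF Φ Y Ψ χ d (x, w)‖ ≤ M := by
  have k : ∀ x ∈ ball x₀ ((D₂ + μ / 2) * d), ∀ w : ℂ, ‖w‖ = d → |(w / d).im| < κ →
      In r₀ s d D₁ A (x + sh χ d w) := fun x hx w hw hk => by
    have nz : ‖w / d‖ = 1 := by
      rw [norm_div, Complex.norm_real, Real.norm_of_nonneg hd.le, hw, div_self hd.ne']
    refine ((i0.shift (mem_ball_iff_norm.1 hx).le).add (sh_le hd hρ2 χb (w := w) (by nlinarith))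
      (k := -(D₁ + 1)) ?_).mono hd (by linarith) (by linarith)
    have := χs _ nz hk
    have e := abs_le.1 ((Complex.abs_im_le_norm _).trans nz.le)
    rw [sh_im χ hd]
    exact mul_le_mul_of_nonneg_right (by linarith) hd.le
  have k' := fun x hx => gen hY hd hr a1 a2 a3 r4 r1 hΦ hε hΨ hs hρ1 hρ2 dχ χ0 χe χb hK i0 e1 e2
    (by nlinarith) (norm_pos_iff.1 (hw ▸ hd)) (k x hx w hw hk)
    (k x hx (-w) (by rwa [norm_neg]) (by rwa [neg_div, Complex.neg_im, abs_neg]))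
  exact ⟨fun x hx => ((k' x hx).1.comp x (f := fun x : ℂ => (x, w))
    (by fun_prop)).differentiableWithinAt, fun x hx => (k' x hx).2.1⟩

theorem up (hB : SBox) {μ κ D D₀ : ℝ} {J : ℕ} {w : ℂ} (hε0 : 0 ≤ ε)
    (law : ∀ x w : ℂ, w ≠ 0 → ‖w‖ ≤ 2 * d → (x - w, w) ∈ OmB r₀ s d R c → (x, w) ∈ OmB r₀ s d R c →
      (x + w, w) ∈ OmB r₀ s d R c → Y (x - w, w) ∈ Box r₀ s d R → Y (x, w) ∈ Box r₀ s d R →
      Y (x + w, w) ∈ Box r₀ s d R →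
      Φ (Y (x, w), Y (x + w, w)) + Φ (Y (x, w), Y (x - w, w)) = 0)
    (hκ : 0 < κ) (hμ : 0 < μ) (hμ1 : μ ≤ 1) (hw : ‖w‖ = d) (hk : κ ≤ (w / d).im)
    (χs : ∀ z : ℂ, ‖z‖ = 1 → κ ≤ |z.im| → (χ z).im + μ ≤ |z.im| / 2) (e3 : D + K + 5 ≤ D₂)
    (h1 : 2 < c * D) (h2 : 64 * C < μ * D) (h3 : 2 ≤ D) (h4 : A + J + D₀ + 3 < R)
    (h6 : 1 / R < μ / 4) (g1 : 2 < c * D₀) (g2 : 16 * C ≤ D₀) (g3 : 2 ≤ D₀)
    (g4 : 2 * D₀ ≤ J * κ) (g5 : 256 * ε ≤ μ)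
    (g6 : C / D₀ + (J + 1) * (2 * C / D₀ ^ 2 + J * (5 * ε)) ≤ μ / 8) :
    ∃ G : ℂ → ℂ, DifferentiableOn ℂ G (ball x₀ ((D₂ + μ / 2) * d)) ∧
      (∀ x ∈ ball x₀ ((D₂ + μ / 2) * d), ‖G x‖ ≤ M) ∧
      ∀ᶠ x in 𝓝 x₀, G x = FF Φ Y Ψ χ d (x, w) := by
  have nz : ‖w / d‖ = 1 := by
    rw [norm_div, Complex.norm_real, Real.norm_of_nonneg hd.le, hw, div_self hd.ne']
  have sl := sh_le hd hρ2 χb (w := w) (by nlinarith)
  have si : (sh χ d w).im ≤ -μ * d := by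
    have := χs _ nz (hk.trans (le_abs_self _))
    rw [abs_of_nonneg (by linarith)] at this
    rw [sh_im χ hd]
    exact mul_le_mul_of_nonneg_right (by linarith) hd.le
  have tr : ∀ x ∈ ball x₀ ((D₂ + μ / 2) * d), x + sh χ d w ∈
      ball (x₀ + sh χ d w) ((D₂ + μ / 2) * d) := fun x hx => by rwa [mem_ball, dist_add_right]
  obtain ⟨G, k1, k2, k3⟩ := thick (x₁ := x₀ + sh χ d w) (A := A) (D := D) (τ := (D₂ + μ / 2) * d)
    hB hY hd hr hΦ hε0 hε law hΨ hw (by rwa [Complex.div_ofReal_im, le_div_iff₀ hd] at hk) hκ hμ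
    hμ1 (mul_pos (by linarith) hd)
    (fun x hx => by
      have := (i0.shift (y := x - sh χ d w) (t := D₂ + μ / 2) (by
        rw [show x - sh χ d w - x₀ = x - (x₀ + sh χ d w) by ring]
        exact (mem_ball_iff_norm.1 hx).le)).add sl si
      rw [sub_add_cancel] at this
      exact this.mono hd (by linarith) (by linarith))
    ((i0.shift (t := K + 1) (by rwa [add_sub_cancel_left])).mono hd (by linarith) (by linarith))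
    h1 h2 h3 h4 r1 h6 g1 g2 g3 g4 g5 g6
  refine ⟨fun x => G (x + sh χ d w), k1.comp (by fun_prop) tr, fun x hx => k2 _ (tr x hx), ?_⟩
  have t : Tendsto (fun x => x + sh χ d w) (𝓝 x₀) (𝓝 (x₀ + sh χ d w)) :=
    (continuous_add_right _).tendsto _
  exact t.eventually k3

end

theorem scoreL_of (hR : SRem) (hB : SBox) (hX : SChi) (hF : SCoef) (hE : SExt) : SCoreL := by
  intro c C hc hC
  obtain ⟨D₁, -, -, -, -, a1, a2, a3, -⟩ := nums hc hC one_pos one_pos le_rfl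
  obtain ⟨χ, κ, μ, K, ρ, hκ, hμ, hμ1, hK, hρ1, hρ2, dχ, χ0, χe, χb, χs⟩ :=
    hX (D₁ + 2) (by linarith)
  obtain ⟨D₀, ε, J, hε0, hε, g1, g2, g3, g4, g5, g6⟩ := nums hc hC hκ hμ hμ1
  obtain ⟨D, b3, b1, b2⟩ := nums2 hc hC hμ a1 a3
  obtain ⟨D₂, e3⟩ : ∃ D₂, D + K + 5 = D₂ := ⟨_, rfl⟩
  obtain ⟨A, e2⟩ : ∃ A, 2 * D₂ + K + 4 = A := ⟨_, rfl⟩
  have j0 : (0 : ℝ) ≤ J := J.cast_nonneg
  obtain ⟨R, r3, r1, r2⟩ := nums3 hμ (A + J + D₀ + 3)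
  have r4 : A + 2 < R := by linarith
  have e1 : D₁ + K + 5 ≤ D₂ := by linarith
  have h3 : 2 ≤ D := by linarith
  have n1 : 1 / R < D₂ := by linarith
  have n2 : D₂ < R := by linarith
  have n3 : 0 < D₂ + μ / 2 := by linarith
  have n4 : D₂ + (D₂ + μ / 2) < R := by linarith
  refine ⟨R, ε, r1, hε0, fun Φ Y r₀ s d hd hr hY hΦ law => ?_⟩
  obtain ⟨x₀, hx₀⟩ : ∃ x₀ : ℂ, x₀ = ⟨s, r₀ - D₂ * d⟩ := ⟨_, rfl⟩
  have i0 : In r₀ s d D₂ D₂ x₀ := by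
    refine ⟨?_, ?_, ?_⟩ <;> simp only [hx₀]
    · simp only [sub_self, abs_zero]
      exact mul_nonneg (by linarith) hd.le
    · linarith
    · linarith
  have τ0 : 0 < (D₂ + μ / 2) * d := mul_pos n3 hd
  refine ⟨x₀, _, τ0, i0.box hd n1 n2, ?_, ?_, fun Ψ M hΨ hs => ?_⟩
  · simp only [hx₀]
    linarith [mul_pos hμ hd]
  · simp only [hx₀]
    linarith [mul_lt_mul_of_pos_right n4 hd, mul_pos (one_pos.trans r1) hd]
  have dF := (bid hY hd hr a1 a2 a3 r4 r1 hΦ hε hΨ hs hρ1 hρ2 dχ χ0 χe χb hK i0 e1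
    e2.le).resolve_right (not_not.2 hR)
  have ev := fun x w => evn (x := x) (w := w) hY hd hr a1 a2 a3 r4 r1 hΦ hε hΨ hs hρ1 hρ2 dχ χ0 χe
    χb hK i0 e1 e2.le
  have up := fun w hw hk => up (w := w) hY hd hr a1 a2 a3 r4 r1 hΦ hε hΨ hs hρ1 hρ2 dχ χ0 χe χb hK
    i0 e1 e2.le hB hε0.le law hκ hμ hμ1 hw hk (fun z hz => (χs z hz).1) e3.le b1 b2 h3 r3 r2 g1 g2
    g3 g4 g5 g6
  have ρd : d < ρ * d := lt_mul_of_one_lt_left hd hρ1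
  have ex : Real.exp ((Real.log ((D₂ + μ / 2) * d) : ℝ) : ℂ).re = (D₂ + μ / 2) * d := by
    rw [Complex.ofReal_re, Real.exp_log τ0]
  have co := hF _ (fun _ => ((Real.log ((D₂ + μ / 2) * d) : ℝ) : ℂ)) x₀ d M (ball 0 d)
    (ball 0 (ρ * d)) hd isOpen_ball
    isBounded_ball (closure_ball_subset_closedBall.trans (closedBall_subset_ball ρd)) dF
    (differentiableOn_const _) (fun w hw => by
      rw [frontier_ball _ hd.ne', mem_sphere_zero_iff_norm] at hw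
      rw [ex]
      rcases lt_or_ge |(w / d).im| κ with hk | hk
      · have := thin hY hd hr a1 a2 a3 r4 r1 hΦ hε hΨ hs hρ1 hρ2 dχ χ0 χe χb hK i0 e1 e2.le hμ1 hw
          hk fun z hz => (χs z hz).2
        exact ⟨_, this.1, this.2, Eventually.of_forall fun _ => rfl⟩
      · rcases le_abs'.1 hk with hk | hk
        · obtain ⟨G, k1, k2, k3⟩ := up (-w) (by rwa [norm_neg])
            (by rw [neg_div, Complex.neg_im]; exact le_neg.1 hk)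
          refine ⟨G, k1, k2, ?_⟩
          filter_upwards [k3, ball_mem_nhds x₀ hd] with x h1 h2
          rw [h1, (ev x w h2 hw).1]
        · exact up w hw hk)
    0 (subset_closure (mem_ball_self hd))
  simp only [ex] at co
  have an : AnalyticAt ℂ (fun x => FF Φ Y Ψ χ d (x, 0)) x₀ :=
    (dF.comp (f := fun x : ℂ => (x, (0 : ℂ))) (s := ball x₀ d) (by fun_prop)
      fun x hx => ⟨hx, mem_ball_self (hd.trans ρd)⟩).analyticAt (ball_mem_nhds _ hd)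
  obtain ⟨G, k1, k2⟩ := (hE _ x₀ 0 _ M τ0).1 an co
  refine ⟨G, k1, ?_⟩
  filter_upwards [k2, ball_mem_nhds x₀ hd] with x h1 h2
  rw [h1, (ev x d h2 (by rw [Complex.norm_real, Real.norm_of_nonneg hd.le])).2]

end CL

theorem scoreL : SCoreL := CL.scoreL_of srem (sbox sroot) schi (scoef sext) sext

end Vale.Agent.P097L
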