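import Vale.Agent.P097L.CalmL

/-!
# P097L: a calm box with a local baseline gives a regular point of the top line
-/

set_option linter.all false

noncomputable section

namespace Vale.Agent.P097L

open Filter Topology Set Metric Vale.Agent.P097N Vale.Agent.P097N.NC

/-- the law on the local domain -/
def LawB (θ h : ℂ → ℂ) (Z : ℂ × ℂ → ℂ) (r₀ s d R c : ℝ) : Prop := ∀ x w : ℂ,
  (x - w, w) ∈ OmB r₀ s d R c → (x, w) ∈ OmB r₀ s d R c → (x + w, w) ∈ OmB r₀ s d R c →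
    EE θ h (Z (x - w, w)) (Z (x, w)) (Z (x + w, w)) = 0

theorem overL {c₁ C : ℝ} (hc : 0 < c₁) (C0 : 0 < C) : ∃ R e : ℝ, 1 < R ∧ 0 < e ∧
    ∀ (θ h Q : ℂ → ℂ) (c : ℂ) (r₀ s d : ℝ) (Z : ℂ × ℂ → ℂ), Cv θ h Q c (St r₀) → 0 < d →
      2 * R * d ≤ r₀ → BlB Z r₀ s d R c₁ C → LawB θ h Z r₀ s d R c₁ →
      Calm (Ph θ h) (Box r₀ s d R) (8 * d) e → (∀ b ∈ Box r₀ s d R, ‖deriv θ b‖ * d ≤ e) →
      (∀ b ∈ Box r₀ s d R, ∀ b' ∈ Box r₀ s d R, b' ≠ b → ‖b' - b‖ ≤ 8 * d → k1 θ h b b' ≠ 0) →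
      Over1 θ r₀ := by
  have c0 : 0 < min c₁ (1 / (8 * C)) := lt_min hc (by positivity)
  have cc : C * min c₁ (1 / (8 * C)) ≤ 1 / 8 :=
    (mul_le_mul_of_nonneg_left (min_le_right _ _) C0.le).trans_eq (by field_simp)
  obtain ⟨R, e, R1, e0, core⟩ := scoreL _ C c0 C0
  refine ⟨R, min e (1 / 16), R1, lt_min e0 (by norm_num),
    fun θ h Q c r₀ s d Z cv d0 hr bl₁ lw k1' k2 k3 => ?_⟩
  have sub : OmB r₀ s d R (min c₁ (1 / (8 * C))) ⊆ OmB r₀ s d R c₁ := fun p hp =>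
    ⟨hp.1, hp.2.1, hp.2.2.1, hp.2.2.2.1, hp.2.2.2.2.trans_le
      (mul_le_mul_of_nonneg_right (min_le_left _ _) (by linarith [hp.2.1]))⟩
  have bl : BlB Z r₀ s d R (min c₁ (1 / (8 * C))) C :=
    ⟨c0, C0, bl₁.d'.mono sub, fun p hp => bl₁.ev p (sub hp), fun p hp => bl₁.bd p (sub hp)⟩
  have near : ∀ {x w : ℂ}, (x, w) ∈ OmB r₀ s d R (min c₁ (1 / (8 * C))) →
      ‖Z (x, w) - x‖ ≤ ‖w‖ / 8 := fun {x w} hp => by
    have t0 : 0 < r₀ - x.im := d0.trans hp.2.1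
    have t1 : ‖w‖ < _ * (r₀ - x.im) := hp.2.2.2.2
    refine (bl.bd _ hp).trans ?_
    rw [div_le_iff₀ t0]
    have t2 : C * ‖w‖ ≤ 1 / 8 * (r₀ - x.im) := by nlinarith
    nlinarith [norm_nonneg w]
  have cm : Calm (Ph θ h) (Box r₀ s d R) (8 * d) e := fun b hb b' hb' k =>
    ⟨(k1' b hb b' hb' k).1.trans (mul_le_mul_of_nonneg_right (min_le_left _ _) (norm_nonneg _)),
      (k1' b hb b' hb' k).2⟩
  obtain ⟨x₀, τ, τ0, xb, x1, -, ext⟩ := core (Ph θ h) Z r₀ s d d0 hr bl cm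
    fun x w w0 w2 o1 o2 o3 b1 b2 b3 => by
      have n1 := near o1
      have n2 := near o2
      have n3 := near o3
      have w1 : 0 < ‖w‖ := norm_pos_iff.2 w0
      have pr : ∀ u v a b : ℂ, ‖a - u‖ ≤ ‖w‖ / 8 → ‖b - v‖ ≤ ‖w‖ / 8 → ‖v - u‖ = ‖w‖ →
          b ≠ a ∧ ‖b - a‖ ≤ 8 * d := fun u v a b ha hb e => by
        have t : ‖b - a - (v - u)‖ ≤ ‖w‖ / 4 := by
          rw [show b - a - (v - u) = (b - v) - (a - u) by ring]
          linarith [norm_sub_le (b - v) (a - u)]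
        refine ⟨fun k => ?_, by linarith [norm_le_norm_sub_add (b - a) (v - u)]⟩
        rw [k, sub_self, zero_sub, norm_neg] at t
        linarith
      have p1 := pr _ _ _ _ n2 n3 (by rw [add_sub_cancel_left])
      have p2 := pr _ _ _ _ n2 n1 (by rw [sub_sub_cancel_left, norm_neg])
      exact ph_law (lw x w (sub o1) (sub o2) (sub o3)) (k3 _ b2 _ b3 p1.1 p1.2)
        (k3 _ b2 _ b1 p2.1 p2.2)
  have an := cv.dθ.analyticOnNhd cv.op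
  have aE : AnalyticOnNhd ℂ (fun y => Complex.exp (2 * Complex.I * θ y)) (St r₀) := fun y hy =>
    (analyticAt_const.mul (an y hy)).cexp'
  obtain ⟨bs, M₀, hM⟩ := box_bd (s := s) aE.continuousOn d0 R1 hr
  have dn := fun b hb l (hl : ‖l‖ ≤ 8 * d) => den d0 hl (k2 b hb) (min_le_right _ _)
  have nz : ∀ b ∈ Box r₀ s d R, ∀ l : ℂ, ‖l‖ ≤ 8 * d → 1 - Complex.I * l * deriv θ b ≠ 0 :=
    fun b hb l hl => norm_pos_iff.1 (by linarith [(dn b hb l hl).1])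
  have e1 : min e (1 / 16) ≤ 1 := (min_le_right _ _).trans (by norm_num)
  obtain ⟨G, dG, eG⟩ := ext (LU θ) (M₀ * (3 / 2) / (1 / 2)) (fun b hb l hl => ⟨by
      have a1 : AnalyticAt ℂ (fun q : ℂ × ℂ => Complex.exp (2 * Complex.I * θ q.1)) (b, l) :=
        (aE b (bs hb)).comp_of_eq (f := fun q : ℂ × ℂ => q.1) analyticAt_fst rfl
      have a2 : AnalyticAt ℂ (fun q : ℂ × ℂ => Complex.I * q.2 * deriv θ q.1) (b, l) :=
        (analyticAt_const.mul analyticAt_snd).mul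
          ((an b (bs hb)).deriv.comp_of_eq (f := fun q : ℂ × ℂ => q.1) analyticAt_fst rfl)
      exact (a1.mul (analyticAt_const.add a2)).div (analyticAt_const.sub a2) (nz b hb l hl), by
      have := (norm_nonneg _).trans (hM b hb)
      rw [LU, norm_div, norm_mul]
      gcongr
      exacts [hM b hb, (dn b hb l hl).2, (dn b hb l hl).1]⟩)
    fun b hb b' hb' ne le => by
      have le' : ‖b - b'‖ ≤ 8 * d := by rwa [norm_sub_rev]
      exact (salg θ h b b' (k3 b hb b' hb' ne le) (k3 b' hb' b hb ne.symm le')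
        (nz b hb _ ((Core.half k1' e1 hb hb' le).trans le))
        (nz b' hb' _ ((Core.half k1' e1 hb' hb le').trans le'))).1
  have xs : x₀.im < r₀ := (abs_lt.1 (bs xb)).2
  have id : EqOn G (fun y => Complex.exp (2 * Complex.I * θ y)) (ball x₀ τ ∩ St r₀) :=
    ((dG.analyticOnNhd isOpen_ball).mono inter_subset_left).eqOn_of_preconnected_of_eventuallyEq
      (aE.mono inter_subset_right) ((convex_ball _ _).inter (st_convex _)).isPreconnected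
      ⟨mem_ball_self τ0, bs xb⟩ (eG.mono fun x hx => by simpa [LU] using hx)
  have sb : ball (x₀ + (r₀ - x₀.im : ℝ) * Complex.I) (τ - (r₀ - x₀.im)) ⊆ ball x₀ τ :=
    ball_subset_ball' (by
      rw [dist_eq_norm, add_sub_cancel_left, norm_mul, Complex.norm_I, Complex.norm_real,
        Real.norm_of_nonneg (by linarith)]
      linarith)
  exact ⟨_, _, G, by simp, by linarith, dG.mono sb, fun y hy hy' => id ⟨sb hy, hy'⟩⟩

/-- no calm disc, given the local baseline below every calm box of size `R'` -/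
theorem noCalmB {c₁ C : ℝ} (hc : 0 < c₁) (C0 : 0 < C) : ∃ R : ℝ, 1 < R ∧
    ∀ R' A ε' : ℝ, R ≤ R' → 0 < ε' → ∃ e : ℝ, 0 < e ∧
    ∀ (θ h Q : ℂ → ℂ) (c : ℂ) (r₀ : ℝ) (y₀ : ℂ), Cv θ h Q c (St r₀) → ¬ Over1 θ r₀ → y₀.im < r₀ →
      4 * R' * (r₀ - y₀.im) ≤ r₀ →
      (∀ y ∈ Box r₀ y₀.re (r₀ - y₀.im) (2 * R'), ‖deriv θ y‖ * (r₀ - y₀.im) ≤ A ∧
        ‖Q y‖ * (r₀ - y₀.im) ^ 2 ≤ A) →
      ((∀ b ∈ Box r₀ y₀.re (r₀ - y₀.im) R', ‖deriv θ b‖ * (r₀ - y₀.im) ≤ ε' ∧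
        ‖Q b‖ * (r₀ - y₀.im) ^ 2 ≤ ε') → ∃ Z, BlB Z r₀ y₀.re (r₀ - y₀.im) R c₁ C ∧
          LawB θ h Z r₀ y₀.re (r₀ - y₀.im) R c₁) →
      ∃ y ∈ ball y₀ ((r₀ - y₀.im) / 8), e < ‖deriv θ y‖ * (r₀ - y₀.im) ∨
        e < ‖Q y‖ * (r₀ - y₀.im) ^ 2 := by
  obtain ⟨R, e, R1, e0, ov⟩ := overL hc C0
  refine ⟨R, R1, fun R' A ε' hR ε0 => ?_⟩
  obtain ⟨ε₁, h1, calm⟩ := scalmL A R' (min e ε') (R1.trans_le hR) (lt_min e0 ε0)
  refine ⟨ε₁, h1, fun θ h Q c r₀ y₀ cv nov y1 y2 gr base => ?_⟩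
  by_contra! H
  obtain ⟨k1', k2, k3⟩ := calm θ h Q c r₀ y₀ cv y1 y2 gr H
  obtain ⟨Z, bl, lw⟩ := base fun b hb =>
    ⟨(k2 b hb).1.trans (min_le_right _ _), (k2 b hb).2.trans (min_le_right _ _)⟩
  obtain ⟨d, hd⟩ : ∃ d, d = r₀ - y₀.im := ⟨_, rfl⟩
  rw [← hd] at k1' k2 k3 y2 bl lw
  have d0 : 0 < d := by linarith
  have a : R * d ≤ R' * d := by gcongr
  have b : d / R' ≤ d / R := by gcongr
  have sub : Box r₀ y₀.re d R ⊆ Box r₀ y₀.re d R' := fun y hy =>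
    ⟨hy.1.trans_le a, b.trans_lt hy.2.1, hy.2.2.trans_le a⟩
  exact nov (ov θ h Q c r₀ y₀.re d Z cv d0 (by nlinarith [mul_pos d0 (one_pos.trans R1)]) bl lw
    (fun b hb b' hb' k => ⟨(k1' b (sub hb) b' (sub hb') k).1.trans
      (mul_le_mul_of_nonneg_right (min_le_left _ _) (norm_nonneg _)),
      (k1' b (sub hb) b' (sub hb') k).2⟩)
    (fun b hb => (k2 b (sub hb)).1.trans (min_le_left _ _))
    fun b hb b' hb' => k3 b (sub hb) b' (sub hb'))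

end Vale.Agent.P097L
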